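import Vale.Agent.P123.Sharp

/-!
# P123: Crouzeix's conjecture

For every nonzero complex Hilbert space `H`, every bounded operator `A` on `H` and every complex
polynomial `P`, `‖P(A)‖ ≤ 2 sup_{z ∈ W(A)} |P(z)|`, and `2` is the least such constant.
-/

namespace Vale.Agent.Results.P123.Crouzeix

open Vale.P123

/-- `C` is admissible: `‖P(A)‖ ≤ C sup_{z ∈ W(A)} |P(z)|` for every nonzero complex Hilbert space
`H`, every bounded operator `A` on `H` and every complex polynomial `P`. -/
def Admissible.{u} (C : ℝ) : Prop :=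
  ∀ (H : Type u) [NormedAddCommGroup H] [InnerProductSpace ℂ H] [CompleteSpace H] [Nontrivial H]
    (A : H →L[ℂ] H) (P : Polynomial ℂ),
    ‖Polynomial.aeval A P‖ ≤ C * ⨆ z : numRange A, ‖P.eval (z : ℂ)‖

/-- Crouzeix's conjecture: the least admissible constant is `2`. -/
theorem result.{u} : IsLeast {C : ℝ | Admissible.{u} C} 2 :=
  ⟨fun _ _ _ _ _ A P => bound_iSup_two A P, fun C hC => two_le_const C hC⟩

end Vale.Agent.Results.P123.Crouzeix
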