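import Vale.Agent.P123.Sharp

/-!
# P123: Crouzeix's conjecture, stated without auxiliary definitions

For every nonzero complex Hilbert space `H`, every bounded operator `A` on `H`, every complex
polynomial `P` and every real `M`: if `|P(⟨x, A x⟩)| ≤ M` for all unit vectors `x` (that is,
`|P| ≤ M` on the numerical range of `A`), then `‖P(A)‖ ≤ 2 M`.  The constant `2` is optimal already
for operators on `ℂ²`.
-/

namespace Vale.Agent.Results.P123.CrouzeixPlain

open Vale.P123

/-- `|P| ≤ M` on the numerical range `{⟨x, A x⟩ : ‖x‖ = 1}` of `A` -/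
def BoundedOnRange {H : Type*} [NormedAddCommGroup H] [InnerProductSpace ℂ H] (A : H →L[ℂ] H)
    (P : Polynomial ℂ) (M : ℝ) : Prop :=
  ∀ x : H, ‖x‖ = 1 → ‖P.eval (inner ℂ x (A x))‖ ≤ M

/-- the inequality `‖P(A)‖ ≤ C sup_{W(A)} |P|` for all bounded operators `A` on `H` and all
polynomials `P` -/
def HoldsOn (H : Type*) [NormedAddCommGroup H] [InnerProductSpace ℂ H] (C : ℝ) : Prop :=
  ∀ (A : H →L[ℂ] H) (P : Polynomial ℂ) (M : ℝ), BoundedOnRange A P M →
    ‖Polynomial.aeval A P‖ ≤ C * M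

/-- Crouzeix's conjecture, and the optimality of the constant `2` for `2 × 2` matrices. -/
theorem result.{u} :
    (∀ (H : Type u) [NormedAddCommGroup H] [InnerProductSpace ℂ H] [CompleteSpace H]
      [Nontrivial H], HoldsOn H 2) ∧
    (∀ C : ℝ, HoldsOn (EuclideanSpace ℂ (Fin 2)) C → 2 ≤ C) := by
  refine ⟨?_, ?_⟩
  · intro H _ _ _ _ A P M h
    apply bound_of_le_two A P M
    rintro _ ⟨x, hx, rfl⟩
    exact h x hx
  · intro C hC
    have h0 : ‖(EuclideanSpace.single 0 (1 : ℂ) : EuclideanSpace ℂ (Fin 2))‖ = 1 := by simp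
    have h1 : ‖(EuclideanSpace.single 1 (1 : ℂ) : EuclideanSpace ℂ (Fin 2))‖ = 1 := by simp
    have h01 : inner ℂ (EuclideanSpace.single 0 (1 : ℂ) : EuclideanSpace ℂ (Fin 2))
        (EuclideanSpace.single 1 (1 : ℂ)) = 0 := by
      rw [EuclideanSpace.inner_single_left]
      simp
    apply two_le_of_bound _ _ h0 h1 h01 C
    intro A P
    apply hC
    intro x hx
    exact le_ciSup (bddAbove_eval A P) ⟨_, x, hx, rfl⟩

end Vale.Agent.Results.P123.CrouzeixPlain
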