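import Vale.Agent.P123.Final

/-!
# P123: Crouzeix's constant is at most `12/5 < 1 + √2`
-/

namespace Vale.Agent.Results.P123.TwelveFifths

open Vale.P123

/-- For every nonzero complex Hilbert space `H`, every bounded operator `A` on `H` and every
complex polynomial `P`, `‖P(A)‖ ≤ (12/5) sup_{z ∈ W(A)} |P(z)|`, and `12/5 < 1 + √2`. -/
theorem result.{u} :
    ((12 / 5 : ℝ) < 1 + Real.sqrt 2) ∧
    ∀ (H : Type u) [NormedAddCommGroup H] [InnerProductSpace ℂ H] [CompleteSpace H]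
      [Nontrivial H] (A : H →L[ℂ] H) (P : Polynomial ℂ),
      ‖Polynomial.aeval A P‖ ≤ (12 / 5 : ℝ) * ⨆ z : numRange A, ‖P.eval (z : ℂ)‖ := by
  refine ⟨?_, fun H _ _ _ _ A P => bound_iSup A P⟩
  have : (7 / 5 : ℝ) < Real.sqrt 2 := Real.lt_sqrt_of_sq_lt (by norm_num)
  linarith

end Vale.Agent.Results.P123.TwelveFifths
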